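import Vale.Agent.P342.H861.Junta1

/-!
Junta theorem, part 2: Fourier weights and the final theorem.
-/

set_option autoImplicit false
set_option linter.unusedSectionVars false

open Finset

namespace Vale.Agent.P342.AL

section weights

variable {ι : Type} [Fintype ι] [DecidableEq ι]

/-- uniform expectation on the cube -/
noncomputable abbrev EE (g : (ι → Bool) → ℝ) : ℝ := P063.Ex (1 / 2 : ℝ) g

/-- uniform Fourier coefficients -/
noncomputable abbrev fcc (g : (ι → Bool) → ℝ) (S : Finset ι) : ℝ := P063.fc (1 / 2 : ℝ) g S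

/-- the bit derivative -/
noncomputable def del (a : ι) (g : (ι → Bool) → ℝ) (b : ι → Bool) : ℝ :=
  g b - P063.avg (1 / 2 : ℝ) {a} g b

lemma del_abs (a : ι) (g : (ι → Bool) → ℝ) (b : ι → Bool) :
    |del a g b| = 1 / 2 * |g (Function.update b a true) - g (Function.update b a false)| := by
  unfold del
  rw [P063.avg_single]
  have h : g b = g (Function.update b a (b a)) := by rw [Function.update_eq_self]
  rw [h]
  cases b a with
  | true =>
    rw [show g (Function.update b a true) - (1 / 2 * g (Function.update b a true)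
      + (1 - 1 / 2) * g (Function.update b a false))
      = 1 / 2 * (g (Function.update b a true) - g (Function.update b a false)) by ring, abs_mul]
    norm_num
  | false =>
    rw [show g (Function.update b a false) - (1 / 2 * g (Function.update b a true)
      + (1 - 1 / 2) * g (Function.update b a false))
      = -(1 / 2 * (g (Function.update b a true) - g (Function.update b a false))) by ring,
      abs_neg, abs_mul]
    norm_num

lemma del_sq (a : ι) (g : (ι → Bool) → ℝ) (b : ι → Bool) :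
    del a g b ^ 2
      = 1 / 4 * (g (Function.update b a true) - g (Function.update b a false)) ^ 2 := by
  rw [← sq_abs, del_abs, mul_pow, sq_abs]
  norm_num

lemma half_pos' : (0 : ℝ) < 1 / 2 := by norm_num
lemma half_lt' : (1 / 2 : ℝ) < 1 := by norm_num

/-- influence -/
lemma EE_del_sq (a : ι) (g : (ι → Bool) → ℝ) :
    EE (fun b => del a g b ^ 2) = ∑ T ∈ univ.filter (fun T : Finset ι => a ∈ T), fcc g T ^ 2 := by
  have h := P063.Ex_sq_sub_avg half_pos' half_lt' ({a} : Finset ι) g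
  refine h.trans ?_
  refine Finset.sum_congr ?_ fun _ _ => rfl
  ext T
  simp

/-- Fourier coefficients of the derivative -/
lemma EE_del_chi (a : ι) (g : (ι → Bool) → ℝ) (T : Finset ι) (hT : a ∈ T) :
    EE (fun b => del a g b * P063.chi (1 / 2 : ℝ) T b) = fcc g T := by
  have h := P063.fc_avg half_pos' half_lt' ({a} : Finset ι) g T
  rw [if_neg (by simpa using hT)] at h
  unfold P063.fc at h
  unfold EE fcc del P063.fc
  have e : (fun b => (g b - P063.avg (1 / 2 : ℝ) {a} g b) * P063.chi (1 / 2 : ℝ) T b)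
      = fun b => g b * P063.chi (1 / 2 : ℝ) T b
        - P063.avg (1 / 2 : ℝ) {a} g b * P063.chi (1 / 2 : ℝ) T b := by
    funext b; ring
  rw [e, P063.Ex_sub, h, sub_zero]

/-- Hölder: `(E δG)^4 ≤ (E|δ|)² E δ² E G⁴` -/
lemma holder4 (δ G : (ι → Bool) → ℝ) :
    (EE (fun b => δ b * G b)) ^ 4
      ≤ (EE (fun b => |δ b|)) ^ 2 * EE (fun b => δ b ^ 2) * EE (fun b => G b ^ 4) := by
  have h1 : |EE (fun b => δ b * G b)| ≤ EE (fun b => |δ b| * |G b|) := by
    rw [abs_le]
    constructor
    · have : EE (fun b => -(|δ b| * |G b|)) ≤ EE (fun b => δ b * G b) := by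
        apply P063.Ex_mono (by norm_num) (by norm_num)
        intro x
        rw [← abs_mul]
        exact neg_abs_le _
      have e : EE (fun b => -(|δ b| * |G b|)) = - EE (fun b => |δ b| * |G b|) := by
        have := P063.Ex_mul_left (ι := ι) (1 / 2 : ℝ) (-1) (fun b => |δ b| * |G b|)
        simp only [neg_mul, one_mul] at this
        exact this
      linarith
    · apply P063.Ex_mono (by norm_num) (by norm_num)
      intro x
      rw [← abs_mul]
      exact le_abs_self _
  have h2 : (EE (fun b => |δ b| * |G b|)) ^ 2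
      ≤ EE (fun b => |δ b|) * EE (fun b => |δ b| * G b ^ 2) := by
    have := P063.Ex_cs' (ι := ι) (p := 1 / 2) (by norm_num) (by norm_num) (fun b => |δ b|)
      (fun b => |G b|) (fun _ => abs_nonneg _)
    simp only [sq_abs] at this
    exact this
  have h3 : (EE (fun b => |δ b| * G b ^ 2)) ^ 2
      ≤ EE (fun b => δ b ^ 2) * EE (fun b => G b ^ 4) := by
    have := P063.Ex_cs (ι := ι) (p := 1 / 2) (by norm_num) (by norm_num) (fun b => |δ b|)
      (fun b => G b ^ 2)
    simp only [sq_abs, ← pow_mul] at this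
    exact this
  have p1 : 0 ≤ EE (fun b => |δ b|) :=
    P063.Ex_nonneg (by norm_num) (by norm_num) (fun _ => abs_nonneg _)
  have p2 : 0 ≤ EE (fun b => |δ b| * G b ^ 2) :=
    P063.Ex_nonneg (by norm_num) (by norm_num)
      (fun _ => mul_nonneg (abs_nonneg _) (sq_nonneg _))
  calc (EE (fun b => δ b * G b)) ^ 4 = (|EE (fun b => δ b * G b)| ^ 2) ^ 2 := by
        rw [sq_abs, ← pow_mul]
    _ ≤ ((EE (fun b => |δ b| * |G b|)) ^ 2) ^ 2 := by gcongr
    _ ≤ (EE (fun b => |δ b|) * EE (fun b => |δ b| * G b ^ 2)) ^ 2 := by gcongr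
    _ = (EE (fun b => |δ b|)) ^ 2 * (EE (fun b => |δ b| * G b ^ 2)) ^ 2 := by ring
    _ ≤ (EE (fun b => |δ b|)) ^ 2 * (EE (fun b => δ b ^ 2) * EE (fun b => G b ^ 4)) := by
        gcongr
    _ = _ := by ring

/-- low degree weight above one bit -/
lemma low_weight (a : ι) (g : (ι → Bool) → ℝ) (d : ℕ) :
    (∑ T ∈ univ.filter (fun T : Finset ι => a ∈ T ∧ T.card ≤ d), fcc g T ^ 2) ^ 2
      ≤ 16 ^ d * ((EE (fun b => |del a g b|)) ^ 2 * EE (fun b => del a g b ^ 2)) := by
  set 𝒯 := univ.filter (fun T : Finset ι => a ∈ T ∧ T.card ≤ d) with h𝒯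
  set w := ∑ T ∈ 𝒯, fcc g T ^ 2 with hw
  set G : (ι → Bool) → ℝ := fun b => ∑ T ∈ 𝒯, fcc g T * P063.chi (1 / 2 : ℝ) T b with hG
  have h1 : EE (fun b => del a g b * G b) = w := by
    have e : (fun b => del a g b * G b)
        = fun b => ∑ T ∈ 𝒯, fcc g T * (del a g b * P063.chi (1 / 2 : ℝ) T b) := by
      funext b
      rw [hG, Finset.mul_sum]
      exact Finset.sum_congr rfl fun T _ => by ring
    unfold EE
    rw [e, P063.Ex_sum, hw]
    refine Finset.sum_congr rfl fun T hT => ?_
    have hT' : a ∈ T := by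
      rw [h𝒯, Finset.mem_filter] at hT
      exact hT.2.1
    rw [P063.Ex_mul_left]
    have := EE_del_chi a g T hT'
    unfold EE at this
    rw [this]
    ring
  have h2 : EE (fun b => G b ^ 4) ≤ 16 ^ d * w ^ 2 := by
    have := P063.bonami_low (ι := ι) half_pos' half_lt' 𝒯 d
      (fun T hT => by rw [h𝒯, Finset.mem_filter] at hT; exact hT.2.2) (fcc g)
    have e16 : (4 / ((1 / 2 : ℝ) * (1 - 1 / 2))) = 16 := by norm_num
    rw [e16] at this
    exact this
  have h3 := holder4 (del a g) G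
  rw [h1] at h3
  have hw0 : 0 ≤ w := Finset.sum_nonneg fun _ _ => sq_nonneg _
  have p1 : 0 ≤ EE (fun b => |del a g b|) :=
    P063.Ex_nonneg (by norm_num) (by norm_num) (fun _ => abs_nonneg _)
  have p2 : 0 ≤ EE (fun b => del a g b ^ 2) :=
    P063.Ex_nonneg (by norm_num) (by norm_num) (fun _ => sq_nonneg _)
  have h4 : w ^ 4 ≤ (EE (fun b => |del a g b|)) ^ 2 * EE (fun b => del a g b ^ 2)
      * (16 ^ d * w ^ 2) :=
    h3.trans (mul_le_mul_of_nonneg_left h2 (by positivity))
  rcases hw0.lt_or_eq with h | h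
  · have hw2 : 0 < w ^ 2 := by positivity
    have : w ^ 2 * w ^ 2 ≤ (16 ^ d * ((EE (fun b => |del a g b|)) ^ 2
        * EE (fun b => del a g b ^ 2))) * w ^ 2 := by
      calc w ^ 2 * w ^ 2 = w ^ 4 := by ring
        _ ≤ _ := h4
        _ = _ := by ring
    exact le_of_mul_le_mul_right this hw2
  · rw [← h]
    simp only [ne_eq, OfNat.ofNat_ne_zero, not_false_eq_true, zero_pow]
    positivity

/-- total influence -/
lemma total_influence (g : (ι → Bool) → ℝ) :
    ∑ a, EE (fun b => del a g b ^ 2) = ∑ T : Finset ι, (T.card : ℝ) * fcc g T ^ 2 := by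
  simp only [EE_del_sq, Finset.sum_filter]
  rw [Finset.sum_comm]
  refine Finset.sum_congr rfl fun T _ => ?_
  rw [← Finset.sum_filter, Finset.sum_const, nsmul_eq_mul]
  congr 2
  simp

/-- splitting the weight -/
lemma weight_split (g : (ι → Bool) → ℝ) (B : Finset ι) (d : ℕ) :
    ∑ T ∈ univ.filter (fun T : Finset ι => ¬ Disjoint T B), fcc g T ^ 2
      ≤ (∑ a, EE (fun b => del a g b ^ 2)) / (d + 1)
        + ∑ a ∈ B, ∑ T ∈ univ.filter (fun T : Finset ι => a ∈ T ∧ T.card ≤ d), fcc g T ^ 2 := by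
  have h1 : ∑ T ∈ univ.filter (fun T : Finset ι => ¬ Disjoint T B), fcc g T ^ 2
      ≤ ∑ T : Finset ι, ((T.card : ℝ) * fcc g T ^ 2 / (d + 1)
        + ∑ a ∈ B, if a ∈ T ∧ T.card ≤ d then fcc g T ^ 2 else 0) := by
    rw [Finset.sum_filter]
    refine Finset.sum_le_sum fun T _ => ?_
    have hpos : 0 ≤ ∑ a ∈ B, if a ∈ T ∧ T.card ≤ d then fcc g T ^ 2 else 0 :=
      Finset.sum_nonneg fun a _ => by split_ifs <;> positivity
    have hpos2 : 0 ≤ (T.card : ℝ) * fcc g T ^ 2 / (d + 1) := by positivity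
    by_cases h : Disjoint T B
    · rw [if_neg (by simpa using h)]
      linarith
    · rw [if_pos h]
      by_cases hc : T.card ≤ d
      · obtain ⟨a, haT, haB⟩ := Finset.not_disjoint_iff.1 h
        have : fcc g T ^ 2 ≤ ∑ a ∈ B, if a ∈ T ∧ T.card ≤ d then fcc g T ^ 2 else 0 := by
          refine le_trans ?_ (Finset.single_le_sum (f := fun a =>
            if a ∈ T ∧ T.card ≤ d then fcc g T ^ 2 else 0)
            (fun a _ => by split_ifs <;> positivity) haB)
          simp [haT, hc]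
        linarith
      · have hcd : (d : ℝ) + 1 ≤ T.card := by
          have : d + 1 ≤ T.card := by omega
          exact_mod_cast this
        have : fcc g T ^ 2 ≤ (T.card : ℝ) * fcc g T ^ 2 / (d + 1) := by
          rw [le_div_iff₀ (by positivity)]
          nlinarith [sq_nonneg (fcc g T)]
        linarith
  refine h1.trans (le_of_eq ?_)
  rw [Finset.sum_add_distrib, total_influence, Finset.sum_div, Finset.sum_comm]
  congr 1
  refine Finset.sum_congr rfl fun a _ => ?_
  rw [Finset.sum_filter]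

end weights

section main

variable {I : Type} [Fintype I] [DecidableEq I] {k : ℕ}

/-- the bits outside `J` -/
def bitsOff (J : Finset I) (k : ℕ) : Finset (I × Fin k) := univ.filter fun a => a.1 ∉ J

lemma mix_enc (J : Finset I) (z b : I × Fin k → Bool) :
    mix J (enc I k b) (enc I k z) = enc I k (P063.mix (bitsOff J k) z b) := by
  funext i
  unfold mix
  by_cases h : i ∈ J
  · rw [if_pos h, enc_apply, enc_apply]
    congr 1
    funext j
    simp [P063.mix, bitsOff, h]
  · rw [if_neg h, enc_apply, enc_apply]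
    congr 1
    funext j
    simp [P063.mix, bitsOff, h]

lemma cexp_enc (J : Finset I) (f : Pt I k → ℝ) (b : I × Fin k → Bool) :
    cexp J f (enc I k b)
      = P063.avg (1 / 2 : ℝ) (bitsOff J k) (fun b => f (enc I k b)) b := by
  unfold cexp P063.avg
  rw [avg_eq (fun y => f (mix J (enc I k b) y))]
  unfold E
  simp only [mix_enc]

lemma cvar_eq (J : Finset I) (f : Pt I k → ℝ) :
    cvar J f = ∑ T ∈ univ.filter (fun T : Finset (I × Fin k) => ¬ Disjoint T (bitsOff J k)),
      fcc (fun b => f (enc I k b)) T ^ 2 := by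
  unfold cvar
  rw [avg_eq (fun x => (f x - cexp J f x) ^ 2)]
  unfold E fcc
  simp only [cexp_enc]
  exact P063.Ex_sq_sub_avg half_pos' half_lt' (bitsOff J k) (fun b => f (enc I k b))

lemma EE_del_abs_le (f : Pt I k → ℝ) (i : I) (j : Fin k) :
    EE (fun b => |del (i, j) (fun b => f (enc I k b)) b|)
      ≤ 2 ^ (j : ℕ) * avg (fun x => |dstep f i x|) := by
  simp only [del_abs]
  rw [EE, P063.Ex_mul_left]
  have := E_abs_diff f i j
  unfold E at this
  linarith

lemma EE_del_sq_le (f : Pt I k → ℝ) (i : I) (j : Fin k) :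
    EE (fun b => del (i, j) (fun b => f (enc I k b)) b ^ 2)
      ≤ 1 / 2 * 4 ^ (j : ℕ) * avg (fun x => (dstep f i x) ^ 2) := by
  simp only [del_sq]
  rw [EE, P063.Ex_mul_left]
  have := E_sq_diff f i j
  unfold E at this
  linarith

lemma avg_mono {f g : Pt I k → ℝ} (h : ∀ x, f x ≤ g x) : avg f ≤ avg g := by
  unfold avg
  gcongr with x
  exact h x

lemma avg_nonneg {f : Pt I k → ℝ} (h : ∀ x, 0 ≤ f x) : 0 ≤ avg f := by
  unfold avg
  exact div_nonneg (Finset.sum_nonneg fun x _ => h x) (by positivity)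

lemma avg_const (c : ℝ) : avg (fun _ : Pt I k => c) = c := by
  unfold avg
  rw [Finset.sum_const, nsmul_eq_mul, Finset.card_univ, mul_comm, mul_div_assoc, div_self, mul_one]
  have : 0 < Fintype.card (Pt I k) := Fintype.card_pos
  positivity

lemma avg_sum {α : Type*} (s : Finset α) (f : α → Pt I k → ℝ) :
    avg (fun x => ∑ a ∈ s, f a x) = ∑ a ∈ s, avg (f a) := by
  unfold avg
  rw [Finset.sum_comm, Finset.sum_div]

lemma avg_mul_left (c : ℝ) (f : Pt I k → ℝ) : avg (fun x => c * f x) = c * avg f := by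
  unfold avg
  rw [← Finset.mul_sum, mul_div_assoc]

lemma sum_four (k : ℕ) : ∑ j : Fin k, (4 : ℝ) ^ (j : ℕ) ≤ 4 ^ k / 3 := by
  rw [Fin.sum_univ_eq_sum_range (fun j => (4 : ℝ) ^ j) k]
  have h : ∀ n : ℕ, ∑ j ∈ range n, (4 : ℝ) ^ j = (4 ^ n - 1) / 3 := by
    intro n
    induction n with
    | zero => simp
    | succ n ih => rw [Finset.sum_range_succ, ih]; ring
  rw [h]
  gcongr
  linarith

/-- one coordinate, low degree -/
lemma low_coord (f : Pt I k → ℝ) (i : I) (j : Fin k) (d : ℕ) (M p : ℝ) (hM : 0 ≤ M)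
    (hp : avg (fun x => |dstep f i x|) ≤ p)
    (hsup : ∀ x, |dstep f i x| ≤ M) :
    ∑ T ∈ univ.filter (fun T : Finset (I × Fin k) => (i, j) ∈ T ∧ T.card ≤ d),
        fcc (fun b => f (enc I k b)) T ^ 2
      ≤ 4 ^ d * (4 ^ (j : ℕ) * (avg (fun x => |dstep f i x|) * Real.sqrt (M * p))) := by
  set P := avg (fun x => |dstep f i x|) with hP
  have hP0 : 0 ≤ P := avg_nonneg fun _ => abs_nonneg _
  have hlow := low_weight (i, j) (fun b => f (enc I k b)) d
  have h1 := EE_del_abs_le f i j
  have h2 := EE_del_sq_le f i j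
  rw [← hP] at h1
  have h3 : avg (fun x => (dstep f i x) ^ 2) ≤ M * p := by
    calc avg (fun x => (dstep f i x) ^ 2) ≤ avg (fun x => M * |dstep f i x|) := by
          apply avg_mono
          intro x
          rw [← sq_abs, sq]
          exact mul_le_mul_of_nonneg_right (hsup x) (abs_nonneg _)
      _ = M * P := avg_mul_left _ _
      _ ≤ M * p := mul_le_mul_of_nonneg_left hp hM
  have hMp : 0 ≤ M * p := mul_nonneg hM (hP0.trans hp)
  set A1 := EE (fun b => |del (i, j) (fun b => f (enc I k b)) b|) with hA1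
  set A2 := EE (fun b => del (i, j) (fun b => f (enc I k b)) b ^ 2) with hA2
  have hA10 : 0 ≤ A1 := P063.Ex_nonneg (by norm_num) (by norm_num) (fun _ => abs_nonneg _)
  have hA20 : 0 ≤ A2 := P063.Ex_nonneg (by norm_num) (by norm_num) (fun _ => sq_nonneg _)
  have h4 : A2 ≤ 4 ^ (j : ℕ) * (M * p) := by
    have h44 : (0 : ℝ) < 4 ^ (j : ℕ) := by positivity
    calc A2 ≤ 1 / 2 * 4 ^ (j : ℕ) * avg (fun x => (dstep f i x) ^ 2) := h2
      _ ≤ 1 / 2 * 4 ^ (j : ℕ) * (M * p) := by gcongr
      _ ≤ 4 ^ (j : ℕ) * (M * p) := by nlinarith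
  apply le_of_sq_le_sq _ (by positivity)
  calc _ ≤ 16 ^ d * (A1 ^ 2 * A2) := hlow
    _ ≤ 16 ^ d * ((2 ^ (j : ℕ) * P) ^ 2 * (4 ^ (j : ℕ) * (M * p))) := by gcongr
    _ = (4 ^ d * (4 ^ (j : ℕ) * (P * Real.sqrt (M * p)))) ^ 2 := by
        have e1 : Real.sqrt (M * p) ^ 2 = M * p := Real.sq_sqrt hMp
        have e2 : (16 : ℝ) ^ d = 4 ^ d * 4 ^ d := by rw [← mul_pow]; norm_num
        have e3 : (4 : ℝ) ^ (j : ℕ) = 2 ^ (j : ℕ) * 2 ^ (j : ℕ) := by rw [← mul_pow]; norm_num
        rw [mul_pow (4 ^ d : ℝ), mul_pow (4 ^ (j : ℕ) : ℝ), mul_pow P, e1, e2, mul_pow]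
        rw [e3]
        ring

/-- the quantitative junta bound -/
theorem junta_bound (f : Pt I k → ℝ) (K τ : ℝ) (hK : 0 < K) (hτ : 0 < τ) (d : ℕ)
    (hf : ∀ x, ∑ i, |dstep f i x| ≤ K / 2 ^ k) (J : Finset I)
    (hJ : ∀ i, i ∉ J → avg (fun x => |dstep f i x|) ≤ τ / 2 ^ k) :
    cvar J f ≤ K ^ 2 / (d + 1) + 4 ^ d * (K * Real.sqrt (K * τ)) := by
  have hQ : (0 : ℝ) < 2 ^ k := by positivity
  have hsup : ∀ i x, |dstep f i x| ≤ K / 2 ^ k := fun i x =>
    (Finset.single_le_sum (f := fun i => |dstep f i x|) (fun _ _ => abs_nonneg _)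
      (Finset.mem_univ i)).trans (hf x)
  have hsum : ∑ i, avg (fun x => |dstep f i x|) ≤ K / 2 ^ k := by
    rw [← avg_sum univ (fun i x => |dstep f i x|), ← avg_const (I := I) (k := k) (K / 2 ^ k)]
    exact avg_mono hf
  rw [cvar_eq]
  refine (weight_split (fun b => f (enc I k b)) (bitsOff J k) d).trans ?_
  have hfour := sum_four k
  have h4k : (4 : ℝ) ^ k = 2 ^ k * 2 ^ k := by rw [← mul_pow]; norm_num
  apply add_le_add
  · -- total influence
    apply div_le_div_of_nonneg_right _ (by positivity)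
    rw [Fintype.sum_prod_type]
    calc ∑ i : I, ∑ j : Fin k, EE (fun b => del (i, j) (fun b => f (enc I k b)) b ^ 2)
        ≤ ∑ i : I, ∑ j : Fin k, 1 / 2 * 4 ^ (j : ℕ) * avg (fun x => (dstep f i x) ^ 2) :=
          Finset.sum_le_sum fun i _ => Finset.sum_le_sum fun j _ => EE_del_sq_le f i j
      _ = (∑ j : Fin k, (4 : ℝ) ^ (j : ℕ)) * (1 / 2) * ∑ i : I, avg (fun x => (dstep f i x) ^ 2) := by
          rw [Finset.mul_sum]
          refine Finset.sum_congr rfl fun i _ => ?_
          rw [Finset.sum_mul, Finset.sum_mul]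
          refine Finset.sum_congr rfl fun j _ => by ring
      _ ≤ (4 ^ k / 3) * (1 / 2) * (K / 2 ^ k) ^ 2 := by
          have hs2 : ∑ i : I, avg (fun x => (dstep f i x) ^ 2) ≤ (K / 2 ^ k) ^ 2 := by
            rw [← avg_sum univ (fun i x => (dstep f i x) ^ 2),
              ← avg_const (I := I) (k := k) ((K / 2 ^ k) ^ 2)]
            apply avg_mono
            intro x
            calc ∑ i, (dstep f i x) ^ 2 = ∑ i, |dstep f i x| ^ 2 := by simp only [sq_abs]
              _ ≤ (∑ i, |dstep f i x|) ^ 2 :=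
                Finset.sum_sq_le_sq_sum_of_nonneg (fun _ _ => abs_nonneg _)
              _ ≤ (K / 2 ^ k) ^ 2 := by
                have := hf x
                have h0 : 0 ≤ ∑ i, |dstep f i x| := Finset.sum_nonneg fun _ _ => abs_nonneg _
                gcongr
          have h0 : 0 ≤ ∑ i : I, avg (fun x => (dstep f i x) ^ 2) :=
            Finset.sum_nonneg fun _ _ => avg_nonneg fun _ => sq_nonneg _
          gcongr
      _ = K ^ 2 / 6 := by
          rw [h4k]
          field_simp
          ring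
      _ ≤ K ^ 2 := by nlinarith [sq_nonneg K]
  · have hB : ∀ a ∈ bitsOff J k,
        ∑ T ∈ univ.filter (fun T : Finset (I × Fin k) => a ∈ T ∧ T.card ≤ d),
          fcc (fun b => f (enc I k b)) T ^ 2
        ≤ 4 ^ d * (4 ^ (a.2 : ℕ) * (avg (fun x => |dstep f a.1 x|)
          * Real.sqrt (K / 2 ^ k * (τ / 2 ^ k)))) := by
      intro a ha
      have ha' : a.1 ∉ J := by
        unfold bitsOff at ha
        simpa using ha
      exact low_coord f a.1 a.2 d (K / 2 ^ k) (τ / 2 ^ k) (by positivity) (hJ _ ha') (hsup _)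
    have hsq : Real.sqrt (K / 2 ^ k * (τ / 2 ^ k)) = Real.sqrt (K * τ) / 2 ^ k := by
      rw [div_mul_div_comm, Real.sqrt_div (by positivity), Real.sqrt_mul_self hQ.le]
    calc ∑ a ∈ bitsOff J k,
        ∑ T ∈ univ.filter (fun T : Finset (I × Fin k) => a ∈ T ∧ T.card ≤ d),
          fcc (fun b => f (enc I k b)) T ^ 2
        ≤ ∑ a ∈ bitsOff J k, 4 ^ d * (4 ^ (a.2 : ℕ) * (avg (fun x => |dstep f a.1 x|)
          * Real.sqrt (K / 2 ^ k * (τ / 2 ^ k)))) := Finset.sum_le_sum hB
      _ ≤ ∑ a : I × Fin k, 4 ^ d * (4 ^ (a.2 : ℕ) * (avg (fun x => |dstep f a.1 x|)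
          * Real.sqrt (K / 2 ^ k * (τ / 2 ^ k)))) := by
          refine Finset.sum_le_univ_sum_of_nonneg fun a => ?_
          have := avg_nonneg (I := I) (k := k) (f := fun x => |dstep f a.1 x|)
            (fun _ => abs_nonneg _)
          positivity
      _ = 4 ^ d * ((∑ j : Fin k, (4 : ℝ) ^ (j : ℕ)) * (∑ i : I, avg (fun x => |dstep f i x|))
          * (Real.sqrt (K * τ) / 2 ^ k)) := by
          rw [hsq, Fintype.sum_prod_type]
          simp only [Finset.sum_mul, Finset.mul_sum]
          refine Finset.sum_congr rfl fun i _ => Finset.sum_congr rfl fun j _ => by ring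
      _ ≤ 4 ^ d * ((4 ^ k / 3) * (K / 2 ^ k) * (Real.sqrt (K * τ) / 2 ^ k)) := by
          have h0 : 0 ≤ ∑ i : I, avg (fun x => |dstep f i x|) :=
            Finset.sum_nonneg fun _ _ => avg_nonneg fun _ => abs_nonneg _
          gcongr
      _ = 4 ^ d * (K * Real.sqrt (K * τ) / 3) := by
          rw [h4k]
          field_simp
      _ ≤ 4 ^ d * (K * Real.sqrt (K * τ)) := by
          have : 0 ≤ K * Real.sqrt (K * τ) := by positivity
          gcongr
          linarith

/-- **Junta theorem** -/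
theorem junta : JuntaStmt := by
  intro K η hK hη
  -- the degree
  obtain ⟨d, hd⟩ := exists_nat_gt (2 * K ^ 2 / η)
  -- the threshold
  set r : ℝ := η / (2 * (4 ^ d * (K * Real.sqrt K) + 1)) with hr
  have hr0 : 0 < r := by positivity
  set τ : ℝ := r ^ 2 with hτ
  have hτ0 : 0 < τ := by positivity
  refine ⟨⌊K / τ⌋₊, ?_⟩
  intro I _ _ k f hf
  have hQ : (0 : ℝ) < 2 ^ k := by positivity
  set J : Finset I := univ.filter fun i => τ / 2 ^ k < avg (fun x => |dstep f i x|) with hJ
  have hsum : ∑ i, avg (fun x => |dstep f i x|) ≤ K / 2 ^ k := by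
    rw [← avg_sum univ (fun i x => |dstep f i x|), ← avg_const (I := I) (k := k) (K / 2 ^ k)]
    exact avg_mono hf
  refine ⟨J, ?_, ?_⟩
  · apply Nat.le_floor
    rw [le_div_iff₀ hτ0]
    have h1 : (J.card : ℝ) * (τ / 2 ^ k) ≤ K / 2 ^ k := by
      calc (J.card : ℝ) * (τ / 2 ^ k) = ∑ i ∈ J, τ / 2 ^ k := by
            rw [Finset.sum_const, nsmul_eq_mul]
        _ ≤ ∑ i ∈ J, avg (fun x => |dstep f i x|) := by
            refine Finset.sum_le_sum fun i hi => ?_
            rw [hJ, Finset.mem_filter] at hi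
            exact hi.2.le
        _ ≤ ∑ i, avg (fun x => |dstep f i x|) :=
            Finset.sum_le_univ_sum_of_nonneg fun i => avg_nonneg fun _ => abs_nonneg _
        _ ≤ K / 2 ^ k := hsum
    rw [← mul_div_assoc, div_le_div_iff_of_pos_right hQ] at h1
    exact h1
  · intro J' hJJ'
    have hb := junta_bound f K τ hK hτ0 d hf J' (by
      intro i hi
      by_contra hc
      push Not at hc
      exact hi (hJJ' (by rw [hJ, Finset.mem_filter]; exact ⟨Finset.mem_univ i, hc⟩)))
    refine hb.trans ?_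
    have h1 : K ^ 2 / ((d : ℝ) + 1) ≤ η / 2 := by
      rw [div_le_div_iff₀ (by positivity) (by norm_num)]
      have : 2 * K ^ 2 < d * η := by
        rwa [div_lt_iff₀ hη] at hd
      nlinarith
    have h2 : 4 ^ d * (K * Real.sqrt (K * τ)) ≤ η / 2 := by
      have e : Real.sqrt (K * τ) = Real.sqrt K * r := by
        rw [hτ, Real.sqrt_mul hK.le, Real.sqrt_sq hr0.le]
      rw [e]
      have hpos : 0 ≤ 4 ^ d * (K * Real.sqrt K) := by positivity
      calc 4 ^ d * (K * (Real.sqrt K * r)) = (4 ^ d * (K * Real.sqrt K)) * r := by ring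
        _ ≤ (4 ^ d * (K * Real.sqrt K) + 1) * r := by nlinarith
        _ = η / 2 := by
            rw [hr]
            field_simp
    linarith

end main

end Vale.Agent.P342.AL

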