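import Mathlib

/-!
Interface of the junta theorem on the grid `{0..2^k-1}^I` (analytic lemma of helper948's proof).
-/

set_option autoImplicit false

namespace Vale.Agent.P342.AL

/-- points of the grid -/
abbrev Pt (I : Type) (k : ℕ) : Type := I → Fin (2 ^ k)

section

variable {I : Type} [Fintype I] [DecidableEq I] {k : ℕ}

/-- `x` on `J`, `y` off `J` -/
def mix (J : Finset I) (x y : Pt I k) : Pt I k := fun i => if i ∈ J then x i else y i

/-- average over the grid -/
noncomputable def avg (f : Pt I k → ℝ) : ℝ := (∑ x, f x) / (Fintype.card (Pt I k) : ℝ)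

/-- conditional expectation of `f` given the coordinates in `J` -/
noncomputable def cexp (J : Finset I) (f : Pt I k → ℝ) (x : Pt I k) : ℝ :=
  avg (fun y => f (mix J x y))

/-- expected conditional variance of `f` given the coordinates in `J` -/
noncomputable def cvar (J : Finset I) (f : Pt I k → ℝ) : ℝ :=
  avg (fun x => (f x - cexp J f x) ^ 2)

/-- one step forward in direction `i` (zero at the end of the range) -/
noncomputable def dstep (f : Pt I k → ℝ) (i : I) (x : Pt I k) : ℝ :=
  if h : (x i : ℕ) + 1 < 2 ^ k then f (Function.update x i ⟨(x i : ℕ) + 1, h⟩) - f x else 0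

end

/-- the junta theorem -/
def JuntaStmt : Prop :=
  ∀ K η : ℝ, 0 < K → 0 < η → ∃ L : ℕ, ∀ (I : Type) [Fintype I] [DecidableEq I] (k : ℕ)
    (f : Pt I k → ℝ), (∀ x, ∑ i, |dstep f i x| ≤ K / 2 ^ k) →
    ∃ J : Finset I, J.card ≤ L ∧ ∀ J' : Finset I, J ⊆ J' → cvar J' f ≤ η

end Vale.Agent.P342.AL
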