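import Vale.Agent.P063.Bdl.B1
import Vale.Agent.P342.H861.JuntaDefs

/-!
Junta theorem, part 1: encoding of the grid by bits, steps and bit derivatives.
-/

set_option autoImplicit false
set_option linter.unusedSectionVars false

open Finset

namespace Vale.Agent.P342.AL

section enc

/-- binary digits -/
def bitv (k : ℕ) : (Fin k → Bool) ≃ Fin (2 ^ k) :=
  (Equiv.arrowCongr (Equiv.refl _) finTwoEquiv.symm).trans finFunctionFinEquiv

lemma bitv_val (k : ℕ) (b : Fin k → Bool) :
    ((bitv k b : Fin (2 ^ k)) : ℕ) = ∑ j, (if b j then 1 else 0) * 2 ^ (j : ℕ) := by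
  unfold bitv
  simp only [Equiv.trans_apply, finFunctionFinEquiv_apply]
  refine Finset.sum_congr rfl fun j _ => ?_
  congr 1
  simp only [Equiv.arrowCongr_apply, Equiv.refl_symm, Equiv.coe_refl, Function.comp_apply, id]
  cases b j <;> rfl

variable {I : Type} [Fintype I] [DecidableEq I] {k : ℕ}

/-- the encoding of the grid by bits -/
def enc (I : Type) (k : ℕ) : (I × Fin k → Bool) ≃ Pt I k :=
  (Equiv.curry I (Fin k) Bool).trans (Equiv.piCongrRight fun _ => bitv k)

lemma enc_apply (b : I × Fin k → Bool) (i : I) :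
    enc I k b i = bitv k (fun j => b (i, j)) := rfl

/-- uniform expectation on the cube -/
noncomputable def E (g : (I × Fin k → Bool) → ℝ) : ℝ := P063.Ex (1 / 2 : ℝ) g

lemma W_half (b : I × Fin k → Bool) :
    P063.W (1 / 2 : ℝ) b = 1 / (Fintype.card (I × Fin k → Bool) : ℝ) := by
  unfold P063.W P063.wt
  have : ∀ i : I × Fin k, (if b i = true then (1/2 : ℝ) else 1 - 1/2) = 1/2 := by
    intro i; split_ifs <;> norm_num
  simp only [this, Finset.prod_const, Finset.card_univ, Fintype.card_fun, Fintype.card_bool]
  push_cast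
  rw [one_div, inv_pow, one_div]

lemma E_eq (g : (I × Fin k → Bool) → ℝ) :
    E g = (∑ b, g b) / (Fintype.card (I × Fin k → Bool) : ℝ) := by
  unfold E P063.Ex
  simp only [W_half]
  rw [← Finset.mul_sum]
  ring

lemma avg_eq (φ : Pt I k → ℝ) : avg φ = E (fun b => φ (enc I k b)) := by
  rw [E_eq]
  unfold avg
  rw [← Equiv.sum_comp (enc I k) φ, Fintype.card_congr (enc I k)]

lemma E_mono {f g : (I × Fin k → Bool) → ℝ} (h : ∀ x, f x ≤ g x) : E f ≤ E g :=
  P063.Ex_mono (by norm_num) (by norm_num) h

lemma E_nonneg {f : (I × Fin k → Bool) → ℝ} (h : ∀ x, 0 ≤ f x) : 0 ≤ E f :=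
  P063.Ex_nonneg (by norm_num) (by norm_num) h

lemma E_const (c : ℝ) : E (fun _ : I × Fin k → Bool => c) = c := P063.Ex_const _ _

lemma E_sum {α : Type*} (s : Finset α) (f : α → (I × Fin k → Bool) → ℝ) :
    E (fun x => ∑ a ∈ s, f a x) = ∑ a ∈ s, E (f a) := P063.Ex_sum _ _ _

lemma E_mul_left (c : ℝ) (f : (I × Fin k → Bool) → ℝ) :
    E (fun x => c * f x) = c * E f := P063.Ex_mul_left _ _ _

/-- reindexing by a bijection of the grid -/
lemma E_perm (σ : Pt I k ≃ Pt I k) (φ : Pt I k → ℝ) :
    E (fun b => φ (σ (enc I k b))) = E (fun b => φ (enc I k b)) := by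
  rw [← avg_eq (fun x => φ (σ x)), ← avg_eq φ]
  unfold avg
  rw [Equiv.sum_comp σ φ]

/-- setting one bit costs a factor two -/
lemma E_update_le (a : I × Fin k) (c : Bool) {g : (I × Fin k → Bool) → ℝ} (h : ∀ x, 0 ≤ g x) :
    E (fun b => g (Function.update b a c)) ≤ 2 * E g := by
  have h1 : E g = E (fun x => 1 / 2 * g (Function.update x a true)
      + (1 - 1 / 2) * g (Function.update x a false)) := by
    unfold E
    rw [← P063.Ex_avg (1 / 2 : ℝ) {a} g]
    congr 1
    funext x
    rw [P063.avg_single]
  rw [h1, ← E_mul_left]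
  apply E_mono
  intro x
  have ht := h (Function.update x a true)
  have hf := h (Function.update x a false)
  cases c <;> linarith

end enc

section shift

variable {I : Type} [Fintype I] [DecidableEq I] {k : ℕ}

/-- cyclic shift by `s` in direction `i` -/
def shift (i : I) (s : ℕ) : Pt I k ≃ Pt I k where
  toFun x := Function.update x i (x i + (Fin.ofNat (2 ^ k) s))
  invFun x := Function.update x i (x i - (Fin.ofNat (2 ^ k) s))
  left_inv x := by
    funext a
    by_cases h : a = i
    · subst h; simp
    · simp [h]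
  right_inv x := by
    funext a
    by_cases h : a = i
    · subst h; simp
    · simp [h]

lemma shift_zero (i : I) (x : Pt I k) : shift i 0 x = x := by
  funext a
  by_cases h : a = i
  · subst h
    simp [shift]
  · simp [shift]

lemma shift_val_lt (i : I) (s : ℕ) (x : Pt I k) (h : (x i : ℕ) + s < 2 ^ k) :
    ((shift i s x) i : ℕ) = (x i : ℕ) + s := by
  simp only [shift, Equiv.coe_fn_mk, Function.update_self]
  rw [Fin.val_add]
  have hs : s < 2 ^ k := by omega
  simp only [Fin.val_ofNat, Nat.mod_eq_of_lt hs]
  exact Nat.mod_eq_of_lt h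

lemma shift_ne (i a : I) (h : a ≠ i) (s : ℕ) (x : Pt I k) : shift i s x a = x a := by
  simp [shift, h]

lemma shift_eq (i : I) (s : ℕ) (x y : Pt I k) (h : (x i : ℕ) + s < 2 ^ k)
    (h1 : (y i : ℕ) = (x i : ℕ) + s) (h2 : ∀ a, a ≠ i → y a = x a) : shift i s x = y := by
  funext a
  by_cases ha : a = i
  · subst ha
    apply Fin.ext
    rw [shift_val_lt _ _ _ h, h1]
  · rw [shift_ne _ _ ha, h2 _ ha]

lemma dstep_shift (f : Pt I k → ℝ) (i : I) (x : Pt I k) (s : ℕ)
    (h : (x i : ℕ) + (s + 1) < 2 ^ k) :
    dstep f i (shift i s x) = f (shift i (s + 1) x) - f (shift i s x) := by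
  have hs := shift_val_lt i s x (by omega)
  unfold dstep
  rw [dif_pos (by rw [hs]; omega)]
  congr 2
  funext a
  by_cases ha : a = i
  · subst ha
    rw [Function.update_self]
    apply Fin.ext
    rw [shift_val_lt _ _ _ h]
    simp only [hs]
    omega
  · rw [Function.update_of_ne ha, shift_ne _ _ ha, shift_ne _ _ ha]

/-- telescoping -/
lemma telescope (f : Pt I k → ℝ) (i : I) (x : Pt I k) (n : ℕ) (h : (x i : ℕ) + n < 2 ^ k) :
    f (shift i n x) - f x = ∑ s ∈ range n, dstep f i (shift i s x) := by
  induction n with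
  | zero => simp [shift_zero]
  | succ n ih =>
    rw [Finset.sum_range_succ, ← ih (by omega), dstep_shift f i x n h]
    ring

end shift

section bits

variable {I : Type} [Fintype I] [DecidableEq I] {k : ℕ}

/-- the value after setting a bit -/
lemma enc_update_val (b : I × Fin k → Bool) (i : I) (j : Fin k) :
    ((enc I k (Function.update b (i, j) true) i : Fin (2 ^ k)) : ℕ)
      = (enc I k (Function.update b (i, j) false) i : Fin (2 ^ k)) + 2 ^ (j : ℕ) := by
  rw [enc_apply, enc_apply, bitv_val, bitv_val,
    ← Finset.add_sum_erase _ _ (Finset.mem_univ j), ← Finset.add_sum_erase _ _ (Finset.mem_univ j)]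
  have h : ∀ j' ∈ (Finset.univ : Finset (Fin k)).erase j, ∀ c : Bool,
      Function.update b (i, j) c (i, j') = b (i, j') := by
    intro j' hj' c
    have hne : j' ≠ j := Finset.ne_of_mem_erase hj'
    rw [Function.update_of_ne]
    intro hc
    exact hne (by simpa using hc)
  have e : ∀ c : Bool, ∑ j' ∈ (Finset.univ : Finset (Fin k)).erase j,
      (if Function.update b (i, j) c (i, j') = true then 1 else 0) * 2 ^ (j' : ℕ)
      = ∑ j' ∈ (Finset.univ : Finset (Fin k)).erase j,
        (if b (i, j') = true then 1 else 0) * 2 ^ (j' : ℕ) :=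
    fun c => Finset.sum_congr rfl fun j' hj' => by rw [h j' hj' c]
  rw [e true, e false]
  simp
  ring

lemma enc_update_ne (b : I × Fin k → Bool) (i a : I) (j : Fin k) (h : a ≠ i) (c : Bool) :
    enc I k (Function.update b (i, j) c) a = enc I k b a := by
  rw [enc_apply, enc_apply]
  congr 1
  funext j'
  rw [Function.update_of_ne]
  intro hc
  exact h (by simpa using congrArg Prod.fst hc)

lemma shift_enc (b : I × Fin k → Bool) (i : I) (j : Fin k) :
    shift i (2 ^ (j : ℕ)) (enc I k (Function.update b (i, j) false))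
      = enc I k (Function.update b (i, j) true) := by
  apply shift_eq
  · rw [← enc_update_val]
    exact (enc I k (Function.update b (i, j) true) i).2
  · exact enc_update_val b i j
  · intro a ha
    rw [enc_update_ne _ _ _ _ ha, enc_update_ne _ _ _ _ ha]

lemma diff_eq (f : Pt I k → ℝ) (b : I × Fin k → Bool) (i : I) (j : Fin k) :
    f (enc I k (Function.update b (i, j) true)) - f (enc I k (Function.update b (i, j) false))
      = ∑ s ∈ range (2 ^ (j : ℕ)),
          dstep f i (shift i s (enc I k (Function.update b (i, j) false))) := by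
  rw [← telescope, shift_enc]
  rw [← enc_update_val]
  exact (enc I k (Function.update b (i, j) true) i).2

/-- `L¹` bound of a bit derivative -/
lemma E_abs_diff (f : Pt I k → ℝ) (i : I) (j : Fin k) :
    E (fun b => |f (enc I k (Function.update b (i, j) true))
        - f (enc I k (Function.update b (i, j) false))|)
      ≤ 2 * 2 ^ (j : ℕ) * avg (fun x => |dstep f i x|) := by
  calc E (fun b => |f (enc I k (Function.update b (i, j) true))
        - f (enc I k (Function.update b (i, j) false))|)
      ≤ E (fun b => ∑ s ∈ range (2 ^ (j : ℕ)),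
          |dstep f i (shift i s (enc I k (Function.update b (i, j) false)))|) := by
        apply E_mono
        intro b
        rw [diff_eq]
        exact Finset.abs_sum_le_sum_abs _ _
    _ = ∑ s ∈ range (2 ^ (j : ℕ)), E (fun b =>
          |dstep f i (shift i s (enc I k (Function.update b (i, j) false)))|) := E_sum _ _
    _ ≤ ∑ s ∈ range (2 ^ (j : ℕ)), 2 * avg (fun x => |dstep f i x|) := by
        refine Finset.sum_le_sum fun s _ => ?_
        have h1 := E_update_le (I := I) (k := k) (i, j) false
          (g := fun b => |dstep f i (shift i s (enc I k b))|) (fun _ => abs_nonneg _)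
        have h2 := E_perm (shift i s) (fun x : Pt I k => |dstep f i x|)
        rw [h2, ← avg_eq (fun x : Pt I k => |dstep f i x|)] at h1
        exact h1
    _ = 2 * 2 ^ (j : ℕ) * avg (fun x => |dstep f i x|) := by
        rw [Finset.sum_const, Finset.card_range, nsmul_eq_mul]
        push_cast
        ring

/-- `L²` bound of a bit derivative -/
lemma E_sq_diff (f : Pt I k → ℝ) (i : I) (j : Fin k) :
    E (fun b => (f (enc I k (Function.update b (i, j) true))
        - f (enc I k (Function.update b (i, j) false))) ^ 2)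
      ≤ 2 * 4 ^ (j : ℕ) * avg (fun x => (dstep f i x) ^ 2) := by
  calc E (fun b => (f (enc I k (Function.update b (i, j) true))
        - f (enc I k (Function.update b (i, j) false))) ^ 2)
      ≤ E (fun b => (2 : ℝ) ^ (j : ℕ) * ∑ s ∈ range (2 ^ (j : ℕ)),
          (dstep f i (shift i s (enc I k (Function.update b (i, j) false)))) ^ 2) := by
        apply E_mono
        intro b
        rw [diff_eq]
        have := sq_sum_le_card_mul_sum_sq (s := range (2 ^ (j : ℕ)))
          (f := fun s => dstep f i (shift i s (enc I k (Function.update b (i, j) false))))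
        rw [Finset.card_range] at this
        push_cast at this
        exact this
    _ = (2 : ℝ) ^ (j : ℕ) * ∑ s ∈ range (2 ^ (j : ℕ)), E (fun b =>
          (dstep f i (shift i s (enc I k (Function.update b (i, j) false)))) ^ 2) := by
        rw [E_mul_left, E_sum]
    _ ≤ (2 : ℝ) ^ (j : ℕ) * ∑ s ∈ range (2 ^ (j : ℕ)), 2 * avg (fun x => (dstep f i x) ^ 2) := by
        refine mul_le_mul_of_nonneg_left (Finset.sum_le_sum fun s _ => ?_) (by positivity)
        have h1 := E_update_le (I := I) (k := k) (i, j) false
          (g := fun b => (dstep f i (shift i s (enc I k b))) ^ 2) (fun _ => sq_nonneg _)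
        have h2 := E_perm (shift i s) (fun x : Pt I k => (dstep f i x) ^ 2)
        rw [h2, ← avg_eq (fun x : Pt I k => (dstep f i x) ^ 2)] at h1
        exact h1
    _ = 2 * 4 ^ (j : ℕ) * avg (fun x => (dstep f i x) ^ 2) := by
        rw [Finset.sum_const, Finset.card_range, nsmul_eq_mul]
        push_cast
        have : (4 : ℝ) ^ (j : ℕ) = 2 ^ (j : ℕ) * 2 ^ (j : ℕ) := by
          rw [← mul_pow]; norm_num
        rw [this]
        ring

end bits

end Vale.Agent.P342.AL
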